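import Vale.Agent.P235N.Defs
import Vale.Agent.Q235.Defs

/-! P235: nested clique sums glued inside apices and vortices. Definitions only. -/

namespace Vale.Agent.Q235V

open Vale.Agent.P235 Vale.Agent.P235.H134 Vale.Agent.P235.K5 Vale.Agent.P235L
open Vale.Agent.P235G.E1 Vale.Agent.Q235
open Vale.Agent.P235T (Surf3 Centred)

/-- `s` is a child of `t` on the level of `t`. -/
def Kid {V : Type} {n : ℕ} {B : ℕ → Set V} (T : BTree n B) (lev : ℕ → ℕ) (t s : ℕ) : Prop :=
  s < n ∧ 0 < s ∧ T.par s = t ∧ lev s = lev t

/-- The piece `t` has two vertex sets `A`, `X`: it is almost embeddable with the apices `A` and with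
`X` inside the vortices, or it is in `P`, `A` has at most `a` vertices and no `k × k` grid minor is
rooted at `X`. Every child of `t` on the level of `t` is glued along a clique inside the union of
`A`, `X` and the clique along which `t` is glued to its parent; or, if `one` holds, along a clique
with at most one vertex outside `A` and the clique to the parent. -/
def Hung (one : Prop) (P : ∀ V : Type, SimpleGraph V → Prop) (a g p w k : ℕ) {V : Type}
    (H : SimpleGraph V) {n : ℕ} {B : ℕ → Set V} (T : BTree n B) (lev : ℕ → ℕ) (t : ℕ) : Prop :=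
  ∃ A X : Set V, (AlmostAt a g p w (H.induce (B t)) {v | v.1 ∈ A} {v | v.1 ∈ X} ∨
      P (B t) (H.induce (B t)) ∧ {v : B t | v.1 ∈ A}.ncard ≤ a ∧
        ¬ RootedMinor (grid k) (H.induce (B t)) {v | v.1 ∈ X}) ∧
    ∀ s, Kid T lev t s →
      Adh B s ⊆ A ∪ X ∪ Adh B t ∨ one ∧ (Adh B s \ (A ∪ Adh B t)).Subsingleton

/-- `P235N.LevelsOf` with more pieces. Levels `lev t ≤ q` do not decrease from a node to its
children, and every level `i` is of one of three kinds: each piece of level `i` has treewidth at
most `k`, or is `Hung False`, or is a surface piece (`SPiece` or `QPiece`) glued to its parent and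
children of level `i` along at most three vertices; or each piece is in `P` and `Centred`, or is
`Hung True`; or all are glued to a parent of level `i` along at most two vertices, and each is in
`Surf3`, or in `P` and `Centred`, or `Hung False`. -/
structure LevelsV (P : ∀ V : Type, SimpleGraph V → Prop) (a g p w k c q : ℕ) {V : Type}
    (H : SimpleGraph V) {n : ℕ} {B : ℕ → Set V} (T : BTree n B) (lev : ℕ → ℕ) : Prop where
  mono : ∀ t < n, lev (T.par t) ≤ lev t
  le : ∀ t < n, lev t ≤ q
  kind : ∀ i, (∀ t < n, lev t = i → TreewidthLE (H.induce (B t)) k ∨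
      Hung False P a g p w k H T lev t ∨
      (SPiece g k (H.induce (B t)) ∨ QPiece g k (H.induce (B t))) ∧
        (lev (T.par t) = i → (Adh B t).ncard ≤ 3) ∧ ∀ s, Kid T lev t s → (Adh B s).ncard ≤ 3) ∨
    (∀ t < n, lev t = i → P (B t) (H.induce (B t)) ∧ Centred c T lev t ∨
      Hung True P a g p w k H T lev t) ∨
    ∀ t < n, lev t = i → (lev (T.par t) = i → (Adh B t).ncard ≤ 2) ∧
      (Surf3 g k (H.induce (B t)) ∨ P (B t) (H.induce (B t)) ∧ Centred c T lev t ∨
        Hung False P a g p w k H T lev t)

/-- Round `0`: almost embeddable graphs, `Surf3`, and the graphs all of whose components have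
`c₁ ≤ D`. Round `j + 1`: the graphs of round `j`; these with at most `a` more vertices; their
minors; the graphs with a set `X` such that all components of `G - X` and all connected `X`-rooted
minors are in round `j`; and the spanning subgraphs of sums, along cliques of any size, of any
number of pieces along a tree with levels as in `LevelsV`, over the graphs of round `j`. -/
def RoundV (D : ℝ) (a g p w k c q : ℕ) : ℕ → ∀ V : Type, SimpleGraph V → Prop
  | 0 => fun _ G => AlmostEmb a g p w G ∨ Surf3 g k G ∨
      ∀ u, DistortionLE (G.induce (compSet G ∅ u)) D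
  | j + 1 => fun V G => RoundV D a g p w k c q j V G ∨
      (∃ A : Set V, A.ncard ≤ a ∧ RoundV D a g p w k c q j ↥Aᶜ (G.induce Aᶜ)) ∨
      (∃ (W : Type) (_ : Finite W) (H : SimpleGraph W), RoundV D a g p w k c q j W H ∧
        IsMinor G H) ∨
      (∃ X : Set V, (∀ u ∉ X, RoundV D a g p w k c q j _ (G.induce (compSet G X u))) ∧
        ∀ (W : Type) [Finite W] (Z : SimpleGraph W), Z.Connected → RootedMinor Z G X →
          RoundV D a g p w k c q j W Z) ∨
      ∃ (H : SimpleGraph V) (m n : ℕ) (B : ℕ → Set V) (T : BTree n B) (lev : ℕ → ℕ),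
        G ≤ H ∧ Glued m H n B ∧ LevelsV (RoundV D a g p w k c q j) a g p w k c q H T lev

end Vale.Agent.Q235V
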