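import Vale.Agent.Q235V.Thin
import Vale.Agent.P235Z.Sum3

/-! P235: thin pieces of a clique sum can be replaced by pieces of bounded treewidth. -/

namespace Vale.Agent.Q235V

open SimpleGraph Vale.Agent.P235 Vale.Agent.P235.H134 Vale.Agent.P235.ST.H742
open Vale.Agent.P235.K5 Vale.Agent.P235L Vale.Agent.P235U Vale.Agent.P235G.E1

/-- all connected subgraphs have `c₁ ≤ A` -/
def Sub (A : ℝ) (V : Type) (H : SimpleGraph V) : Prop :=
  ∀ (W : Type) [Finite W] (G : SimpleGraph W) (φ : W → V), G.Connected → Function.Injective φ →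
    (∀ x y, G.Adj x y → H.Adj (φ x) (φ y)) → DistortionLE G A

theorem rc_glued (A C : ℝ) (k N : ℕ) : ∃ K : ℝ, ∀ (V : Type) [Finite V] (H : SimpleGraph V)
    (m n : ℕ) (B : ℕ → Set V) (Dn : ℕ → Prop), H.Connected → Glued m H n B →
    (∀ t < n, Dn t → (Adh B t).ncard ≤ N ∧ Sub A (B t) (H.induce (B t)) ∧
      Thin k (H.induce (B t)) {v | v.1 ∉ Adh B t ∧ ∃ s < n, t < s ∧ v.1 ∈ B s}) →
    (∀ (X : Set V) (H' : SimpleGraph X), H'.Connected → Glued m H' n (fun t => {x | x.1 ∈ B t}) →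
      (∀ t < n, Dn t → TreewidthLE (H'.induce {x | x.1 ∈ B t}) (k + N)) →
      (∀ t < n, ¬ Dn t → ∀ x y : X, x.1 ∈ B t → y.1 ∈ B t → H'.Adj x y → H.Adj x.1 y.1) →
      DistortionLE H' C) → DistortionLE H K := by
  obtain ⟨K, hK⟩ := rc C A
  refine ⟨K, fun V _ H m n B Dn hc h hD hC => ?_⟩
  let X : Set V := {v | (∃ t < n, v ∈ Adh B t) ∨ ¬ Dn (h.it v)}
  have adh : ∀ t < n, ∀ v ∈ B t, h.it v ≠ t → v ∈ Adh B t := fun t ht v hv e =>
    (h.mem_adh_iff ht).2 ⟨hv, lt_of_le_of_ne (h.it_le ht hv) e⟩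
  have F1 : ∀ v ∉ X, ∀ t < n, v ∈ B t → h.it v = t := fun v hv t ht hb => by
    by_contra e
    exact hv (Or.inl ⟨t, ht, adh t ht v hb e⟩)
  have F2 : ∀ u ∉ X, ∀ v, H.Adj u v → v ∈ B (h.it u) := by
    intro u hu v huv
    rcases le_total (h.it v) (h.it u) with a | a
    · exact h.edge huv.symm a
    · rw [F1 u hu _ (h.it_lt v) (h.edge huv a)]
      exact h.it_mem v
  have F0 : ∀ t < n, ¬ Dn t → ∀ v ∈ B t, v ∈ X := by
    intro t ht hn v hv
    by_cases e : h.it v = t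
    · exact Or.inr (e ▸ hn)
    · exact Or.inl ⟨t, ht, adh t ht v hv e⟩
  have two : ∀ s < n, ∀ t < n, s ≠ t → ∀ x y, x ≠ y → x ∈ B s → x ∈ B t → y ∈ B s → y ∈ B t →
      H.Adj x y := by
    intro s hs t ht hst x y hxy a1 a2 a3 a4
    rcases lt_or_gt_of_ne hst with l | l
    · exact h.clique t ht x ⟨a2, s, l, a1⟩ y ⟨a4, s, l, a3⟩ hxy
    · exact h.clique s hs x ⟨a1, t, l, a2⟩ y ⟨a3, t, l, a4⟩ hxy
  refine hK V H X hc (fun u hu => ?_) fun π hπ hc' => ?_
  · have key : ∀ (a b : V) (q : H.Walk a b), (∀ z ∈ q.support, z ∉ X) → h.it b = h.it a := by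
      intro a b q
      induction q with
      | nil => exact fun _ => rfl
      | @cons a c b hac q ih =>
        intro hq
        rw [ih fun z hz => hq z (by simp [hz])]
        exact F1 c (hq c (by simp)) _ (h.it_lt a) (F2 a (hq a (by simp)) c hac)
    have hb : ∀ z ∈ compSet H X u, z ∈ B (h.it u) := by
      rintro z ⟨q, hq⟩
      rw [← key u z q hq]
      exact h.it_mem z
    exact (hD _ (h.it_lt u) (not_not.1 fun a => hu (Or.inr a))).2.1 _ _
      (fun z : compSet H X u => ⟨z.1, hb z.1 z.2⟩) (comp_connected hu)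
      (fun a b e => Subtype.ext (congrArg (fun z : B (h.it u) => z.1) e)) fun a b hab => hab
  have fib : ∀ s < n, ∀ a ∈ B s, ∃ q : H.Walk a (π a), ∀ z ∈ q.support, z ∈ B s ∧ π z = π a := by
    intro s hs
    have key : ∀ (a b : V) (q : H.Walk a b), (∀ z ∈ q.support, π z = b) → a ∈ B s →
        ∃ q' : H.Walk a b, ∀ z ∈ q'.support, z ∈ B s ∧ π z = b := by
      intro a b q
      induction q with
      | @nil a =>
        refine fun hq ha => ⟨Walk.nil, fun z hz => ⟨?_, hq z hz⟩⟩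
        rw [Walk.support_nil, List.mem_singleton] at hz
        rwa [hz]
      | @cons a c b hac q ih =>
        intro hq ha
        have e := hq a (by simp)
        by_cases hx : a ∈ X
        · refine ⟨Walk.nil.copy rfl ((hπ.id a hx).symm.trans e), fun z hz => ?_⟩
          rw [Walk.support_copy, Walk.support_nil, List.mem_singleton] at hz
          rw [hz]
          exact ⟨ha, e⟩
        · obtain ⟨q', hq'⟩ := ih (fun z hz => hq z (by simp [hz]))
            (F1 a hx s hs ha ▸ F2 a hx c hac)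
          refine ⟨Walk.cons hac q', fun z hz => ?_⟩
          rw [Walk.support_cons, List.mem_cons] at hz
          rcases hz with rfl | hz
          · exact ⟨ha, e⟩
          · exact hq' z hz
    intro a ha
    obtain ⟨q, hq⟩ := hπ.conn a
    exact key a _ q hq ha
  have hB : ∀ s < n, ∀ a ∈ B s, π a ∈ B s := fun s hs a ha => by
    obtain ⟨q, hq⟩ := fib s hs a ha
    exact (hq _ q.end_mem_support).1
  have edge : ∀ x y : X, (rgraph H X π).Adj x y →
      ∃ s < n, ∃ u ∈ B s, ∃ v ∈ B s, H.Adj u v ∧ π u = x.1 ∧ π v = y.1 := by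
    rintro x y ⟨-, u, v, huv, hu, hv⟩
    rcases le_total (h.it u) (h.it v) with a | a
    · exact ⟨_, h.it_lt v, u, h.edge huv a, v, h.it_mem v, huv, hu, hv⟩
    · exact ⟨_, h.it_lt u, u, h.it_mem u, v, h.edge huv.symm a, huv, hu, hv⟩
  have edge' : ∀ t < n, ∀ x y : X, x.1 ∈ B t → y.1 ∈ B t → (rgraph H X π).Adj x y →
      ∃ u ∈ B t, ∃ v ∈ B t, H.Adj u v ∧ π u = x.1 ∧ π v = y.1 := by
    intro t ht x y hx hy hxy
    obtain ⟨s, hs, u, hu, v, hv, huv, e1, e2⟩ := edge x y hxy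
    by_cases e : s = t
    · exact ⟨u, e ▸ hu, v, e ▸ hv, huv, e1, e2⟩
    · exact ⟨x.1, hx, y.1, hy, two s hs t ht e _ _ (fun a => hxy.ne (Subtype.ext a))
        (e1 ▸ hB s hs u hu) hx (e2 ▸ hB s hs v hv) hy, hπ.id _ x.2, hπ.id _ y.2⟩
  refine hC X _ hc' ⟨fun x => h.cover x.1, fun t ht => ?_, fun t ht x hx y hy hxy => ?_,
    fun t ht x y a1 a2 a3 a4 hxy => ?_⟩ (fun t ht hd => ?_) fun t ht hn x y hx hy hxy => ?_
  · exact (Set.ncard_le_ncard_of_injOn (t := Adh B t) Subtype.val (fun x hx => hx)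
      Subtype.val_injective.injOn).trans (h.card t ht)
  · exact ⟨hxy, x.1, y.1, h.clique t ht _ hx _ hy fun e => hxy (Subtype.ext e),
      hπ.id _ x.2, hπ.id _ y.2⟩
  · obtain ⟨s, hs, u, hu, v, hv, -, e1, e2⟩ := edge x y hxy
    have b1 : x.1 ∈ B s := e1 ▸ hB s hs u hu
    have b2 : y.1 ∈ B s := e2 ▸ hB s hs v hv
    have b3 : t < s := by
      rcases lt_trichotomy s t with l | l | l
      · exact absurd ⟨s, l, b1⟩ a2
      · exact absurd (l ▸ b2) a4
      · exact l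
    obtain ⟨s', hs', b4⟩ := id a3
    exact h.sep t ht x.1 y.1 a1 a2 a3 a4 (h.clique s hs _ ⟨b1, t, b3, a1⟩ _
      ⟨b2, s', hs'.trans b3, b4⟩ fun e => hxy.ne (Subtype.ext e))
  · obtain ⟨d1, -, d3⟩ := hD t ht hd
    refine tw_apex (S := {z | z.1.1 ∈ Adh B t})
      ((Set.ncard_le_ncard_of_injOn (fun z => z.1.1) (fun z hz => hz)
        fun a _ b _ e => Subtype.ext (Subtype.ext e)).trans d1) (d3 _ _ ?_)
    refine ⟨fun z => {v | π v.1 = z.1.1.1}, fun z => ?_, fun a b hab => ?_, fun a b hab => ?_,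
      fun z => ⟨⟨z.1.1.1, z.1.2⟩, hπ.id _ z.1.1.2, z.2, ?_⟩⟩
    · have c1 : (H.induce {v | v ∈ B t ∧ π v = z.1.1.1}).Connected := by
        refine conn_of_walks (x := z.1.1.1) ⟨z.1.2, hπ.id _ z.1.1.2⟩ fun v hv => ?_
        obtain ⟨q, hq⟩ := fib t ht v hv.1
        refine ⟨q.copy rfl hv.2, fun y hy => ?_⟩
        rw [Walk.support_copy] at hy
        exact ⟨(hq y hy).1, (hq y hy).2.trans hv.2⟩
      exact c1.map (H := (H.induce (B t)).induce {v | π v.1 = z.1.1.1})
        ⟨fun v => ⟨⟨v.1, v.2.1⟩, v.2.2⟩, fun h => h⟩ fun v => ⟨⟨v.1.1, v.1.2, v.2⟩, rfl⟩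
    · exact Set.disjoint_left.2 fun v a1 a2 =>
        hab (Subtype.ext (Subtype.ext (Subtype.ext (Eq.trans (Eq.symm a1) a2))))
    · obtain ⟨u, hu, v, hv, huv, e1, e2⟩ := edge' t ht a.1.1 b.1.1 a.1.2 b.1.2 hab
      exact ⟨⟨u, hu⟩, e1, ⟨v, hv⟩, e2, huv⟩
    · have e : h.it z.1.1.1 = t := by
        by_contra e
        exact z.2 (adh t ht _ z.1.2 e)
      rcases z.1.1.2 with ⟨s, hs, a⟩ | a
      · exact ⟨s, hs, e ▸ ((h.mem_adh_iff hs).1 a).2, a.1⟩
      · exact absurd (by rwa [e]) a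
  · obtain ⟨u, hu, v, hv, huv, e1, e2⟩ := edge' t ht x y hx hy hxy
    rw [hπ.id u (F0 t ht hn u hu)] at e1
    rw [hπ.id v (F0 t ht hn v hv)] at e2
    rwa [← e1, ← e2]

section regroup

open Vale.Agent.P235Z

theorem sum3_mono {V : Type} {H : SimpleGraph V} {P Q : Set V → Prop} {W A : Set V}
    (h : Sum3 H P W A) (hPQ : ∀ A, P A → Q A) : Sum3 H Q W A := by
  induction h with
  | base h => exact Sum3.base (hPQ _ h)
  | glue _ hB hc hq hn ih => exact Sum3.glue ih (hPQ _ hB) hc hq hn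

theorem regroup {V : Type} [Finite V] {H : SimpleGraph V} {k m n : ℕ} {B : ℕ → Set V}
    {Q : Set V → Prop} (h : Glued m H n B) (hQ : ∀ A, Q A → ∀ u < n, Adh B u ⊆ A →
      (Adh B u).ncard ≤ 3) (hP : ∀ t < n, TreewidthLE (H.induce (B t)) k ∨ Q (B t)) :
    ∀ j, 0 < j → j ≤ n →
      ∃ A, Sum3 H (fun A => TreewidthLE (H.induce A) k ∨ Q A) (Bef B j) A := by
  intro j
  induction j with
  | zero => intro h0; omega
  | succ j ih =>
    intro _ hj
    have eB : Bef B (j + 1) = Bef B j ∪ B j := by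
      ext x
      constructor
      · rintro ⟨s, hs, hx⟩
        by_cases hsj : s = j
        · exact Or.inr (hsj ▸ hx)
        · exact Or.inl ⟨s, by omega, hx⟩
      · rintro (⟨s, hs, hx⟩ | hx)
        · exact ⟨s, by omega, hx⟩
        · exact ⟨j, by omega, hx⟩
    rcases Nat.eq_zero_or_pos j with rfl | h0
    · have : Bef B 0 = ∅ := by
        ext x
        exact ⟨fun ⟨s, hs, _⟩ => absurd hs (by omega), fun h => h.elim⟩
      rw [eB, this, Set.empty_union]
      exact ⟨_, Sum3.base (hP 0 (by omega))⟩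
    obtain ⟨A, hA⟩ := ih h0 (by omega)
    have eR : Bef B j ∩ B j = Adh B j := by
      ext x
      exact ⟨fun h => ⟨h.2, h.1⟩, fun h => ⟨h.2, h.1⟩⟩
    have hq : Clq H (Bef B j ∩ B j) := by
      rw [eR]
      exact h.clique j (by omega)
    have hn : NoE H (Bef B j) (B j) := fun u hu hu' v hv hv' ha =>
      h.sep j (by omega) v u hv hv' hu hu' ha.symm
    rw [eB]
    by_cases h3 : (Bef B j ∩ B j).ncard ≤ 3
    · exact ⟨A, Sum3.glue hA (hP j (by omega)) h3 hq hn⟩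
    obtain ⟨A1, r1, s1⟩ := hA.reroot _ hq Set.inter_subset_left
    have big : ∀ A', Bef B j ∩ B j ⊆ A' → ¬ Q A' := fun A' a b =>
      h3 (eR ▸ hQ A' b j (by omega) (eR ▸ a))
    have t1 := s1.root.resolve_right (big _ r1)
    have t2 := (hP j (by omega)).resolve_right (big _ Set.inter_subset_right)
    have u1 := s1.sub
    have eI : A1 ∩ B j = Bef B j ∩ B j := by
      ext x
      exact ⟨fun h => ⟨u1 h.1, h.2⟩, fun h => ⟨r1 h, h.2⟩⟩
    have tU : TreewidthLE (H.induce (A1 ∪ B j)) k := tw_union t1 t2 (by rw [eI]; exact hq)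
      fun u hu hu' v hv hv' => hn u (u1 hu) hu' v hv fun h => hv' (r1 ⟨h, hv⟩)
    have s4 := s1.extend (U := A1 ∪ B j) (Sum3.base (Or.inl tU)) (by
      rintro x ⟨hx, h | h⟩
      · exact h
      · exact r1 ⟨hx, h⟩) Set.subset_union_left (by
      intro u hu hu' v hv hv'
      exact hn u hu (fun h => hu' (Or.inr h)) v (hv.resolve_left fun h => hv' (u1 h)) hv')
    have e : A1 ∪ B j ∪ Bef B j = Bef B j ∪ B j := by
      ext x
      constructor
      · rintro ((h | h) | h)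
        · exact Or.inl (u1 h)
        · exact Or.inr h
        · exact Or.inl h
      · rintro (h | h)
        · exact Or.inr h
        · exact Or.inl (Or.inr h)
    rw [e] at s4
    exact ⟨_, s4⟩

/-- pieces of small treewidth along any cliques, surface pieces along at most three vertices -/
theorem sum3 (g k : ℕ) : ∃ C : ℝ, ∀ (V : Type) [Finite V] (H : SimpleGraph V) (m n : ℕ)
    (B : ℕ → Set V), H.Connected → Glued m H n B →
    (∀ t < n, TreewidthLE (H.induce (B t)) k ∨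
      (SPiece g k (H.induce (B t)) ∨ QPiece g k (H.induce (B t))) ∧
        ∀ u < n, Adh B u ⊆ B t → (Adh B u).ncard ≤ 3) → DistortionLE H C := by
  obtain ⟨C, hC⟩ := P235G.E1.final.1 g k
  refine ⟨C, fun V _ H m n B hc h hP => ?_⟩
  obtain ⟨v⟩ := hc.nonempty
  obtain ⟨A, hA⟩ := regroup (Q := fun A => (SPiece g k (H.induce A) ∨ QPiece g k (H.induce A)) ∧
    ∀ u < n, Adh B u ⊆ A → (Adh B u).ncard ≤ 3) h (fun A a => a.2) hP n
    (lt_of_le_of_lt (Nat.zero_le _) (h.it_lt v)) le_rfl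
  have e : Bef B n = Set.univ := Set.eq_univ_of_forall fun x => h.cover x
  rw [e] at hA
  have hA' := sum3_mono (Q := fun A => SPiece g k (H.induce A) ∨ QPiece g k (H.induce A)) hA
    fun A a => a.elim (fun b => Or.inl (Or.inr b)) fun b => b.1
  exact (hC V H hc (Or.inr (Or.inr (H281.Rooted.cliqueSum (k := 3) (G := H) (R := ∅)
    (P := fun _ G _ => SPiece g k G ∨ QPiece g k G)
    (hA'.rootedOn (Q := fun _ G => SPiece g k G ∨ QPiece g k G)) fun _ _ _ h => h)))).2.1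

end regroup

end Vale.Agent.Q235V
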