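import Vale.Agent.Q235V.Glue

/-! P235: nested clique sums with pieces glued inside apices and vortices. -/

namespace Vale.Agent.Q235V

open SimpleGraph Vale.Agent.P235 Vale.Agent.P235.H134 Vale.Agent.P235.ST.H742
open Vale.Agent.P235.K5 Vale.Agent.P235L Vale.Agent.P235U Vale.Agent.P235G.E1
open Vale.Agent.P235T Vale.Agent.P235N
open Vale.Agent.Q235 (RootedMinor AlmostAt)

theorem piece_mono {g k l : ℕ} {V : Type} {G : SimpleGraph V} (hkl : k ≤ l)
    (h : SPiece g k G ∨ QPiece g k G) : SPiece g l G ∨ QPiece g l G :=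
  h.imp (fun a => a.imp id fun b => XC.H183.tw_mono b hkl)
    fun a U _ M h1 h2 h3 => (a U M h1 h2 h3).imp id fun b => XC.H183.tw_mono b hkl

theorem surf3_mono {g k l : ℕ} {V : Type} {G : SimpleGraph V} (hkl : k ≤ l) (h : Surf3 g k G) :
    Surf3 g l G := by
  obtain ⟨K, hK, n, B, h1, h2⟩ := h
  exact ⟨K, hK, n, B, h1, fun t ht => piece_mono hkl (h2 t ht)⟩

section cls

variable {V W : Type} {H : SimpleGraph V} {m n : ℕ} {B : ℕ → Set V} {T : BTree n B}
  {lev : ℕ → ℕ} {r : ℕ} {φ : W → V}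

/-- a vertex which appears at `t` and lies in a later bag of the same level is in the adhesion of a
child of that level -/
theorem kid_of (h : Glued m H n B) (hm : ∀ t < n, lev (T.par t) ≤ lev t) {v : V} {s : ℕ}
    (hs : s < n) (hv : v ∈ B s) (hne : h.it v ≠ s) (hl : lev s = lev (h.it v)) :
    ∃ c, Kid T lev (h.it v) c ∧ T.Desc c s := by
  obtain ⟨c, c1, c2, c3⟩ := exists_child s hs (h.desc_of_mem (T := T) hs hv) hne
  have c4 : c < n := lt_of_le_of_lt c3.le hs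
  have b1 := lev_mono hm s hs c3
  have b2 := hm c c4
  rw [c1] at b2
  exact ⟨c, ⟨c4, by omega, c1, by omega⟩, c3⟩

theorem adh_kid (h : Glued m H n B) {v : V} {t c s : ℕ} (ht : t < n) (hs : s < n)
    (hc : Kid T lev t c) (hcs : T.Desc c s) (h1 : v ∈ B t) (h2 : v ∈ B s) : v ∈ Adh B c := by
  refine (h.mem_sub_or hs hcs h2).resolve_left fun a => ?_
  have b1 : c ≤ h.it v := BTree.Desc.le a
  have b2 := h.it_le ht h1
  have b3 := T.par_lt c hc.2.1 hc.1
  rw [hc.2.2.1] at b3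
  omega

end cls

theorem tameP {P : ∀ V : Type, SimpleGraph V → Prop} {A : ℝ} (hA : Her P A) (a g p w k : ℕ) :
    ∃ (D : ℝ) (r : ℕ), A ≤ D ∧ 0 < r ∧ ∀ (V : Type) [Finite V] (G : SimpleGraph V) (S X : Set V),
    (AlmostAt a g p w G S X ∨ P V G ∧ S.ncard ≤ a ∧ ¬ RootedMinor (grid k) G X) →
    Sub D V G ∧ S.ncard ≤ a ∧ ¬ RootedMinor (grid r) G X := by
  obtain ⟨A₁, h1⟩ := almost_sub a g p w
  obtain ⟨r₀, hr⟩ := Q235.vortex_thin a g p w
  refine ⟨max A₁ A, max (max k r₀) 1, le_max_right _ _,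
    lt_of_lt_of_le one_pos (le_max_right _ _), ?_⟩
  rintro V _ G S X (h | ⟨b1, b2, b3⟩)
  · have b3 := hr V G S X h
    obtain ⟨G₀, n, x, B, a1, a2, a3, -⟩ := h
    exact ⟨fun U _ G' ψ c1 c2 c3 =>
      (h1 _ U _ G' ψ c1 c2 c3 ⟨S, G₀, n, x, B, a1, a2, a3⟩).mono (le_max_left _ _), a1,
      fun b => b3 (Q235.grid_mono ((le_max_right _ _).trans (le_max_left _ _)) b)⟩
  · exact ⟨fun U _ G' ψ c1 c2 c3 => (hA _ _ b1 U G' ψ c1 c2 c3).mono (le_max_right _ _), b2,
      fun b => b3 (Q235.grid_mono ((le_max_left _ _).trans (le_max_left _ _)) b)⟩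

theorem cls_rc {P : ∀ V : Type, SimpleGraph V → Prop} {A : ℝ} (hA : Her P A) (a g p w k : ℕ) :
    ∃ k' : ℕ, k ≤ k' ∧ ∀ C : ℝ, ∃ K : ℝ, ∀ (V : Type) [Finite V] (H : SimpleGraph V) (m n : ℕ)
    (B : ℕ → Set V) (h : Glued m H n B) (T : BTree n B) (lev : ℕ → ℕ) (r : ℕ),
    (∀ t < n, lev (T.par t) ≤ lev t) → ∀ (W : Type) [Finite W] (G : SimpleGraph W) (φ : W → V),
    G.Connected → Function.Injective φ → (∀ x y, G.Adj x y → H.Adj (φ x) (φ y)) →
    (∀ x, T.Desc r (h.it (φ x)) ∧ lev (h.it (φ x)) = lev r) →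
    (∀ (X : Set W) (H' : SimpleGraph X), H'.Connected →
      Glued m H' n (fun t => {x | x.1 ∈ pull T lev r φ t}) →
      (∀ t < n, Hung False P a g p w k H T lev t →
        TreewidthLE (H'.induce {x | x.1 ∈ pull T lev r φ t}) k') →
      (∀ t < n, ¬ Hung False P a g p w k H T lev t → ∀ x y : X, x.1 ∈ pull T lev r φ t →
        y.1 ∈ pull T lev r φ t → H'.Adj x y → H.Adj (φ x.1) (φ y.1)) → DistortionLE H' C) →
    DistortionLE G K := by
  obtain ⟨D, r₀, -, -, h1⟩ := tameP hA a g p w k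
  obtain ⟨k₂, h3⟩ := thin_of_grid r₀
  obtain ⟨N, hN⟩ := clique_bd D
  refine ⟨max k (k₂ + a + N), le_max_left _ _, fun C => ?_⟩
  obtain ⟨K, hK⟩ := rc_glued D C (k₂ + a) N
  refine ⟨K, fun V _ H m n B h T lev r hm W _ G φ hc hφ hadj hx hC => ?_⟩
  have hle : G ≤ H.comap φ := fun x y hxy => hadj x y hxy
  have hH : (H.comap φ).Connected := hc.mono hle
  have hg : Glued m (H.comap φ) n (pull T lev r φ) :=
    pull_glued (S := ∅) h hm hφ hx (fun _ a => a) fun t ht _ _ _ => by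
      rw [Set.sdiff_empty]
      exact h.card t ht
  refine DistortionLE.emb id Function.injective_id (fun x y hxy => hle hxy) hH hc
    (hK W _ m n _ (fun t => Hung False P a g p w k H T lev t) hH hg (fun t ht hv => ?_)
      fun X H' a1 a2 a3 a4 => hC X H' a1 a2
        (fun t ht hv => XC.H183.tw_mono (a3 t ht hv) (le_max_right _ _)) a4)
  obtain ⟨S, X, v1, v2⟩ := hv
  obtain ⟨s1, s3, s4⟩ := h1 _ _ _ _ v1
  have s2 : Thin (k₂ + a) (H.induce (B t))
      {v | v.1 ∉ Adh B t ∧ ∃ s, Kid T lev t s ∧ v.1 ∈ Adh B s} :=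
    (h3 _ _ _ s4).apex s3 fun y ⟨y1, s, y2, y3⟩ =>
      ((v2 s y2).resolve_right (fun b => b.1) y3).resolve_right y1
  let ψ : pull T lev r φ t → B t := fun z => ⟨φ z.1, z.2.2⟩
  have hψ : Function.Injective ψ := fun a b e =>
    Subtype.ext (hφ (congrArg (fun z : B t => z.1) e))
  refine ⟨(Set.ncard_le_ncard_of_injOn φ (fun y hy => pull_adh hy) hφ.injOn).trans
    (hN V H (B t) (Adh B t) s1 (fun v hv => hv.1) (h.clique t ht)),
    fun U _ G' χ b1 b2 b3 => s1 U G' (ψ ∘ χ) b1 (hψ.comp b2) fun x y e => b3 x y e,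
    fun U _ Z hZ => s2 U Z (rm_push ψ hψ (fun x y e => e) ?_ hZ)⟩
  rintro y ⟨y1, s, hs, hts, y2⟩
  have e : h.it (φ y.1) = t := by
    by_contra e
    exact y1 ⟨y.2, _, lt_of_le_of_ne (h.it_le ht y.2.2) e, hx y.1, h.it_mem _⟩
  obtain ⟨c, c1, c2⟩ := kid_of (T := T) h hm hs y2.2 (by omega) (y2.1.2.trans (hx y.1).2.symm)
  rw [e] at c1
  refine ⟨fun b => ?_, c, c1, adh_kid h ht hs c1 c2 y.2.2 y2.2⟩
  have := ((h.mem_adh_iff ht).1 b).2
  exact absurd e this.ne

theorem vortA {P : ∀ V : Type, SimpleGraph V → Prop} {A : ℝ} (hA : Her P A) (a g p w k : ℕ) :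
    ∃ C : ℝ, ∀ (V : Type) [Finite V] (H : SimpleGraph V) (m n : ℕ) (B : ℕ → Set V)
    (h : Glued m H n B) (T : BTree n B) (lev : ℕ → ℕ) (r : ℕ), (∀ t < n, lev (T.par t) ≤ lev t) →
    (∀ t < n, lev t = lev r → TreewidthLE (H.induce (B t)) k ∨ Hung False P a g p w k H T lev t ∨
      (SPiece g k (H.induce (B t)) ∨ QPiece g k (H.induce (B t))) ∧
        (lev (T.par t) = lev r → (Adh B t).ncard ≤ 3) ∧
        ∀ s, Kid T lev t s → (Adh B s).ncard ≤ 3) → ClsBd C h T lev r := by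
  obtain ⟨k', hk', h1⟩ := cls_rc hA a g p w k
  obtain ⟨C, hC⟩ := sum3 g k'
  obtain ⟨K, hK⟩ := h1 C
  refine ⟨K, fun V _ H m n B h T lev r hm hk W _ G φ hc hφ hadj hx =>
    hK V H m n B h T lev r hm W G φ hc hφ hadj hx fun X H' a1 a2 a3 a4 =>
      hC X H' m n _ a1 a2 fun t ht => ?_⟩
  by_cases hv : Hung False P a g p w k H T lev t
  · exact Or.inl (a3 t ht hv)
  rcases ({x | x.1 ∈ pull T lev r φ t} : Set X).eq_empty_or_nonempty with he | ⟨x0, h0⟩
  · refine Or.inl (P235A.tw_small ?_)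
    rw [he, Set.ncard_empty]
    omega
  let ψ : ({x | x.1 ∈ pull T lev r φ t} : Set X) → B t := fun z => ⟨φ z.1.1, z.2.2⟩
  have hψ : Function.Injective ψ := fun a b e =>
    Subtype.ext (Subtype.ext (hφ (congrArg (fun z : B t => z.1) e)))
  have hψa : ∀ x y, (H'.induce {x | x.1 ∈ pull T lev r φ t}).Adj x y →
      (H.induce (B t)).Adj (ψ x) (ψ y) := fun x y e => a4 t ht hv x.1 y.1 x.2 y.2 e
  rcases hk t ht h0.1.2 with b | b | ⟨b1, b2, b3⟩
  · exact Or.inl (XC.H183.tw_mono (TreewidthLE.comap ψ hψ hψa b) hk')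
  · exact absurd b hv
  refine Or.inr ⟨piece_mono hk' (piece_comap ψ hψ hψa b1), fun u hu hsub => ?_⟩
  have hinj : Function.Injective fun z : X => φ z.1 := fun a b e => Subtype.ext (hφ e)
  by_cases hc' : ∃ c, Kid T lev t c ∧ T.Desc c u
  · obtain ⟨c, c1, c2⟩ := hc'
    exact (Set.ncard_le_ncard_of_injOn (fun z : X => φ z.1)
      (fun y hy => adh_kid h ht hu c1 c2 (hsub hy).2 hy.1.2) hinj.injOn).trans (b3 c c1)
  have key : ∀ y ∈ Adh (fun t => {x : X | x.1 ∈ pull T lev r φ t}) u,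
      y.1 ∈ Adh (pull T lev r φ) t := by
    intro y hy
    refine ⟨hsub hy, _, lt_of_le_of_ne (h.it_le ht (hsub hy).2) fun e => hc' ?_, hx y.1,
      h.it_mem _⟩
    have := ((h.mem_adh_iff hu).1 (pull_adh (T := T) (lev := lev) (r := r) hy)).2
    rw [← e]
    exact kid_of h hm hu hy.1.2 this.ne (hy.1.1.2.trans (hx y.1).2.symm)
  rcases (Adh (fun t => {x : X | x.1 ∈ pull T lev r φ t}) u).eq_empty_or_nonempty with
    he | ⟨y, hy⟩
  · rw [he, Set.ncard_empty]
    omega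
  · exact (Set.ncard_le_ncard_of_injOn (fun z : X => φ z.1)
      (fun z hz => pull_adh (key z hz)) hinj.injOn).trans (b2 (pull_par hm ht (key y hy)).2.2.2.2)

theorem vortC {P : ∀ V : Type, SimpleGraph V → Prop} {A : ℝ} (hA : Her P A) (a g p w k c : ℕ) :
    ∃ C : ℝ, ∀ (V : Type) [Finite V] (H : SimpleGraph V) (m n : ℕ) (B : ℕ → Set V)
    (h : Glued m H n B) (T : BTree n B) (lev : ℕ → ℕ) (r : ℕ) (M : ℕ → Set V),
    (∀ t < n, lev (T.par t) ≤ lev t) →
    (∀ t < n, lev t = lev r → (lev (T.par t) = lev r → (Adh B t).ncard ≤ 2) ∧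
      (Surf3 g k (H.induce (B t)) ∨ (P (B t) (H.induce (B t)) ∧ (M t).ncard ≤ c ∧
        {s | s < n ∧ 0 < s ∧ T.par s = t ∧ lev s = lev r ∧
          ¬ (Adh B s \ (M t ∪ Adh B t)).Subsingleton}.ncard ≤ c) ∨
        Hung False P a g p w k H T lev t)) → ClsBd C h T lev r := by
  obtain ⟨k', hk', h1⟩ := cls_rc hA a g p w k
  obtain ⟨C, hC⟩ := mixP (P := Sub A) (A := A) (fun V _ H h => h) g k' c
  obtain ⟨K, hK⟩ := h1 C
  refine ⟨K, fun V _ H m n B h T lev r M hm hk W _ G φ hc hφ hadj hx =>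
    hK V H m n B h T lev r hm W G φ hc hφ hadj hx fun X H' a1 a2 a3 a4 => ?_⟩
  let T' : BTree n (fun t => {x : X | x.1 ∈ pull T lev r φ t}) :=
    ⟨T.par, T.par_zero, T.par_le, T.par_lt, fun t h0 ht x hx' =>
      ⟨(pull_par hm ht hx').2.2.2, T.adh t h0 ht (pull_adh hx')⟩⟩
  have hinj : Function.Injective fun z : X => φ z.1 := fun a b e => Subtype.ext (hφ e)
  refine hC X H' m n _ a2 T' lev r (fun t => {x | φ x.1 ∈ M t}) hm (fun t ht e => ?_) X H' id a1
    Function.injective_id (fun _ _ b => b) fun x => (a2.it_mem x).1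
  obtain ⟨b0, b⟩ := hk t ht e
  refine ⟨fun e' => (Set.ncard_le_ncard_of_injOn (fun z : X => φ z.1)
    (fun z hz => pull_adh (T := T) (lev := lev) (r := r) hz) hinj.injOn).trans (b0 e'), ?_⟩
  by_cases hv : Hung False P a g p w k H T lev t
  · exact Or.inl ⟨_, le_rfl, single_sum fun U _ Z _ _ hZ => Or.inr (tw_minor hZ (a3 t ht hv))⟩
  let ψ : ({x | x.1 ∈ pull T lev r φ t} : Set X) → B t := fun z => ⟨φ z.1.1, z.2.2⟩
  have hψ : Function.Injective ψ := fun a b e =>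
    Subtype.ext (Subtype.ext (hφ (congrArg (fun z : B t => z.1) e)))
  have hψa : ∀ x y, (H'.induce {x | x.1 ∈ pull T lev r φ t}).Adj x y →
      (H.induce (B t)).Adj (ψ x) (ψ y) := fun x y e => a4 t ht hv x.1 y.1 x.2 y.2 e
  rcases b with b | ⟨b1, b2, b3⟩ | b
  · exact Or.inl (surf3_mono hk' (surf3_comap ψ hψ hψa b))
  · refine Or.inr ⟨fun U _ G' χ c1 c2 c3 => hA _ _ b1 U G' (ψ ∘ χ) c1 (hψ.comp c2)
      fun x y e => hψa _ _ (c3 x y e),
      (Set.ncard_le_ncard_of_injOn (fun z : X => φ z.1) (fun z hz => hz) hinj.injOn).trans b2,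
      (Set.ncard_le_ncard ?_ ((Set.finite_lt_nat n).subset fun s hs => hs.1)).trans b3⟩
    rintro s ⟨s1, s2, s3, s4, s5⟩
    refine ⟨s1, s2, s3, s4, fun hb => s5 ?_⟩
    have key : ∀ y ∈ Adh (fun t => {x : X | x.1 ∈ pull T lev r φ t}) s \
        ({x : X | φ x.1 ∈ M t} ∪ Adh (fun t => {x : X | x.1 ∈ pull T lev r φ t}) t),
        φ y.1 ∈ Adh B s \ (M t ∪ Adh B t) := by
      rintro y ⟨y1, y2⟩
      refine ⟨pull_adh (T := T) (lev := lev) (r := r) y1, ?_⟩
      rintro (y3 | y3)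
      · exact y2 (Or.inl y3)
      · have s3' : T.par s = t := s3
        exact y2 (Or.inr ⟨⟨s3' ▸ (pull_par hm s1 y1).2.2.2, y3.1⟩, _,
          ((h.mem_adh_iff ht).1 y3).2, hx y.1, h.it_mem _⟩)
    exact fun y hy z hz => hinj (hb (key y hy) (key z hz))
  · exact absurd b hv

theorem vortB {P : ∀ V : Type, SimpleGraph V → Prop} {A : ℝ} (hA : Her P A) (a g p w k c : ℕ) :
    ∃ C : ℝ, ∀ (V : Type) [Finite V] (H : SimpleGraph V) (m n : ℕ) (B : ℕ → Set V)
    (h : Glued m H n B) (T : BTree n B) (lev : ℕ → ℕ) (r : ℕ), (∀ t < n, lev (T.par t) ≤ lev t) →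
    (∀ t < n, lev t = lev r → P (B t) (H.induce (B t)) ∧ Centred c T lev t ∨
      Hung True P a g p w k H T lev t) → ClsBd C h T lev r := by
  classical
  obtain ⟨D, r₀, hAD, hr, h1⟩ := tameP hA a g p w k
  obtain ⟨N, hN⟩ := clique_bd D
  obtain ⟨K, hK⟩ := Q235.thin_core D r₀ (max a (c + c * N))
  refine ⟨K, fun V _ H m n B h T lev r hm hk W _ G φ hG hφ hadj hx => ?_⟩
  have hsub : ∀ t < n, lev t = lev r → Sub D (B t) (H.induce (B t)) := by
    intro t ht e
    rcases hk t ht e with b | ⟨S, X, b, -⟩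
    · exact fun U _ G' ψ c1 c2 c3 => (hA _ _ b.1 U G' ψ c1 c2 c3).mono hAD
    · exact (h1 _ _ _ _ b).1
  have ex : ∀ t, ∃ S X : Set V, t < n → lev t = lev r →
      {v : B t | v.1 ∈ S}.ncard ≤ max a (c + c * N) ∧
      ¬ RootedMinor (grid r₀) (H.induce (B t)) {v | v.1 ∈ X} ∧ ∀ s, Kid T lev t s →
        Adh B s ⊆ S ∪ X ∪ Adh B t ∨ (Adh B s \ (S ∪ Adh B t)).Subsingleton := by
    intro t
    by_cases e : t < n ∧ lev t = lev r
    swap
    · exact ⟨∅, ∅, fun a b => absurd ⟨a, b⟩ e⟩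
    rcases hk t e.1 e.2 with ⟨-, M, b1, b2⟩ | ⟨S, X, b, b'⟩
    · let bad : Set ℕ := {s | s < n ∧ 0 < s ∧ T.par s = t ∧ lev s = lev t ∧
        ¬ (Adh B s \ (M ∪ Adh B t)).Subsingleton}
      have hfin : bad.Finite := (Set.finite_lt_nat n).subset fun s hs => hs.1
      refine ⟨M ∪ ⋃ s ∈ hfin.toFinset, Adh B s, ∅, fun _ _ => ⟨?_, ?_, fun s hs => ?_⟩⟩
      · refine (Set.ncard_le_ncard_of_injOn (t := M ∪ ⋃ s ∈ hfin.toFinset, Adh B s) Subtype.val
          (fun v hv => hv) Subtype.val_injective.injOn).trans (le_trans ?_ (le_max_right _ _))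
        refine (Set.ncard_union_le _ _).trans (add_le_add b1 ?_)
        refine (Finset.set_ncard_biUnion_le _ _).trans ?_
        refine (Finset.sum_le_card_nsmul _ _ N fun s hs => ?_).trans ?_
        · have := hfin.mem_toFinset.1 hs
          exact hN V H (B s) (Adh B s) (hsub s this.1 (this.2.2.2.1.trans e.2)) (fun v hv => hv.1)
            (h.clique s this.1)
        · rw [smul_eq_mul, ← Set.ncard_eq_toFinset_card _ hfin]
          exact Nat.mul_le_mul_right _ b2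
      · rintro ⟨μ, -, -, -, h4⟩
        obtain ⟨y, -, hy⟩ := h4 (⟨0, hr⟩, ⟨0, hr⟩)
        exact hy
      · by_cases hb : (Adh B s \ (M ∪ Adh B t)).Subsingleton
        · exact Or.inr (hb.anti fun v hv => ⟨hv.1, fun b => hv.2 (b.imp_left Or.inl)⟩)
        · exact Or.inl fun v hv => Or.inl (Or.inl (Or.inr (Set.mem_biUnion
            (hfin.mem_toFinset.2 ⟨hs.1, hs.2.1, hs.2.2.1, hs.2.2.2, hb⟩) hv)))
    · obtain ⟨-, c2, c3⟩ := h1 _ _ _ _ b
      exact ⟨S, X, fun _ _ => ⟨c2.trans (le_max_left _ _), c3,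
        fun s hs => (b' s hs).imp_right fun d => d.2⟩⟩
  choose S X hS using ex
  have hit : ∀ x, x ∈ pull T lev r φ (h.it (φ x)) := fun x => ⟨hx x, h.it_mem _⟩
  have hle : G ≤ H.comap φ := fun x y hxy => hadj x y hxy
  have hH : (H.comap φ).Connected := hG.mono hle
  have hg : Glued m (H.comap φ) n (pull T lev r φ) :=
    pull_glued (S := ∅) h hm hφ hx (fun _ a => a) fun t ht _ _ _ => by
      rw [Set.sdiff_empty]
      exact h.card t ht
  refine (hK W (H.comap φ) m n _ (fun t => φ ⁻¹' S t) (fun t => φ ⁻¹' X t) hH hg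
    (fun t ht => ?_) fun s hs h0 => ?_).emb id Function.injective_id (fun _ _ a => hle a) hH hG
  · rcases isEmpty_or_nonempty (pull T lev r φ t) with e | ⟨⟨z⟩⟩
    · refine ⟨dist_empty _ _, ?_, ?_⟩
      · rw [Set.eq_empty_of_isEmpty {v : pull T lev r φ t | v.1 ∈ φ ⁻¹' S t}, Set.ncard_empty]
        omega
      · rintro ⟨μ, -, -, -, h4⟩
        obtain ⟨y, -⟩ := h4 (⟨0, hr⟩, ⟨0, hr⟩)
        exact isEmptyElim y
    have hψ : Function.Injective fun z : pull T lev r φ t => (⟨φ z.1, z.2.2⟩ : B t) :=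
      fun a b e => Subtype.ext (hφ (congrArg (fun z : B t => z.1) e))
    obtain ⟨a2, a3, -⟩ := hS t ht z.2.1.2
    have : Nonempty (pull T lev r φ t) := ⟨z⟩
    exact ⟨hsub t ht z.2.1.2 _ _ _ ⟨K5.H266.bag_conn hg hH.preconnected t ht⟩ hψ fun _ _ b => b,
      (Set.ncard_le_ncard_of_injOn (t := {v : B t | v.1 ∈ S t})
        (fun z : pull T lev r φ t => (⟨φ z.1, z.2.2⟩ : B t)) (fun _ a => a) hψ.injOn).trans a2,
      fun a => a3 (rm_push _ hψ (fun _ _ b => b) (fun _ b => b) a)⟩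
  · rcases (Adh (pull T lev r φ) s).eq_empty_or_nonempty with he | ⟨x, h1⟩
    · refine ⟨0, h0, ?_, Or.inl ?_⟩ <;> rw [he] <;> exact Set.empty_subset _
    obtain ⟨-, a1, a2, a3, a4⟩ := pull_par hm hs h1
    have hp : T.par s < n := a1.trans hs
    have sub : Adh (pull T lev r φ) s ⊆ pull T lev r φ (T.par s) := fun y hy =>
      ⟨⟨a3, a4⟩, T.adh s h0 hs (pull_adh hy)⟩
    have back : ∀ y ∈ Adh (pull T lev r φ) s, φ y ∈ Adh B (T.par s) →
        y ∈ Adh (pull T lev r φ) (T.par s) := fun y hy e =>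
      ⟨sub hy, _, ((h.mem_adh_iff hp).1 e).2, hit y⟩
    refine ⟨T.par s, a1, sub, ((hS _ hp a4).2.2 s ⟨hs, h0, rfl, a2.trans a4.symm⟩).imp
      (fun a y hy => ?_) fun a y hy z hz => hφ (a ⟨pull_adh hy.1, ?_⟩ ⟨pull_adh hz.1, ?_⟩)⟩
    · exact (a (pull_adh hy)).imp_right (back y hy)
    · exact fun e => hy.2 (e.imp_right (back y hy.1))
    · exact fun e => hz.2 (e.imp_right (back z hz.1))

theorem minor_sub {A : ℝ} {U V : Type} [Finite U] {H : SimpleGraph U} {G : SimpleGraph V}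
    (h : Sub A U H) (hm : IsMinor G H) : Sub (2 * max A 1) V G := by
  obtain ⟨μ, h1, h2, h3⟩ := hm
  intro W _ G' φ hc hφ hadj
  obtain ⟨x0⟩ := hc.nonempty
  obtain ⟨⟨y0, hy0⟩⟩ := (h1 (φ x0)).nonempty
  have one : ∀ b, ∀ y ∈ μ b, ∀ z ∈ μ b, H.Reachable y z := fun b y hy z hz =>
    ((h1 b).preconnected ⟨y, hy⟩ ⟨z, hz⟩).map (Embedding.induce (μ b)).toHom
  have key : ∀ (x y : W) (_ : G'.Walk x y), ∀ u ∈ μ (φ x), ∀ v ∈ μ (φ y), H.Reachable u v := by
    intro x y ρ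
    induction ρ with
    | nil => exact one _
    | cons hxz _ ih =>
      intro u hu v hv
      obtain ⟨a, ha, b, hb, hab⟩ := h3 _ _ (hadj _ _ hxz)
      exact ((one _ u hu a ha).trans hab.reachable).trans (ih b hb v hv)
  have hK := comp_connected (G := H) (Set.notMem_empty y0)
  refine H406.mono _ W _ G' _ (le_max_right _ _) hK hc (P235Z.minor_in (fun x => μ (φ x))
    (fun x z hz => ?_) (fun x => h1 _) (fun x y e => h2 _ _ (hφ.ne e))
    fun x y e => h3 _ _ (hadj x y e))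
    ((h _ _ Subtype.val hK Subtype.val_injective fun _ _ e => e).mono (le_max_left _ _))
  obtain ⟨ρ⟩ := hc.preconnected x0 x
  obtain ⟨σ⟩ := key x0 x ρ y0 hy0 z hz
  exact ⟨σ, fun _ _ e => e⟩

theorem herV (D : ℝ) (a g p w k c q j : ℕ) : ∃ C : ℝ, Her (RoundV D a g p w k c q j) C := by
  induction j with
  | zero =>
    obtain ⟨A₁, h1⟩ := almost_sub a g p w
    obtain ⟨A₂, h2⟩ := Vale.Agent.P235G.E1.final.1 g k
    refine ⟨max (max A₁ A₂) D, fun V _ H h W _ G φ hc hφ hadj => ?_⟩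
    rcases h with h | h | h
    · exact (h1 V W H G φ hc hφ hadj h).mono ((le_max_left _ _).trans (le_max_left _ _))
    · exact (h2 W G hc (Or.inr (Or.inr (surf3_comap φ hφ hadj h)))).2.1.mono
        ((le_max_right _ _).trans (le_max_left _ _))
    · obtain ⟨x0⟩ := hc.nonempty
      have hin : ∀ x, φ x ∈ compSet H ∅ (φ x0) := fun x => by
        obtain ⟨ρ⟩ := (hc.preconnected x0 x).map (⟨φ, fun {x y} e => hadj x y e⟩ : G →g H)
        exact ⟨ρ, fun _ _ e => e⟩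
      exact ((h (φ x0)).emb (fun x => ⟨φ x, hin x⟩)
        (fun x y e => hφ (congrArg Subtype.val e)) (fun x y e => hadj x y e)
        (comp_connected (Set.notMem_empty _)) hc).mono (le_max_right _ _)
  | succ j ih =>
    obtain ⟨A, hA⟩ := ih
    obtain ⟨C₀, -, hap⟩ := apex_log'
    obtain ⟨A₁, h1⟩ := vortA hA a g p w k
    obtain ⟨A₂, h2⟩ := vortB hA a g p w k c
    obtain ⟨A₃, h3⟩ := vortC hA a g p w k c
    obtain ⟨C, hC⟩ := level_ind (max A₁ (max A₂ A₃)) (q + 1)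
    obtain ⟨K, hK⟩ := rc A A
    refine ⟨max (max (2 * max A 1) K) (max (C₀ * (max A 0 + Real.log (a + 2))) C),
      fun V _ H₀ h₀ W _ G φ hc hφ hadj => ?_⟩
    rcases h₀ with h₀ | ⟨S, hS, h₀⟩ | ⟨U, _, H, u1, u2⟩ | ⟨X, x1, x2⟩ |
      ⟨H, m, n, B, T, lev, hH, h, L⟩
    · refine (hA V H₀ h₀ W G φ hc hφ hadj).mono
        (le_trans ?_ ((le_max_left _ _).trans (le_max_left _ _)))
      have a1 := le_max_left A 1
      have a2 := le_max_right A 1
      linarith
    · refine DistortionLE.mono (hap (max A 0) (le_max_right _ _) a W G hc {x | φ x ∈ S}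
        ((Set.ncard_le_ncard_of_injOn φ (fun y hy => hy) hφ.injOn).trans hS)
        fun u hu => DistortionLE.mono ?_ (le_max_left _ _))
        ((le_max_left _ _).trans (le_max_right _ _))
      exact hA _ _ h₀ _ _
        (fun z : compSet G {x | φ x ∈ S} u =>
          (⟨φ z.1, ReachOff.right (X := {x | φ x ∈ S}) z.2⟩ : ↥Sᶜ)) (comp_connected hu)
        (fun a b e => Subtype.ext (hφ (congrArg (fun z : ↥Sᶜ => z.1) e)))
        (fun a b hab => hadj _ _ hab)
    · exact (minor_sub (hA U H u1) u2 W G φ hc hφ hadj).mono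
        ((le_max_left _ _).trans (le_max_left _ _))
    · refine (hK W G {x | φ x ∈ X} hc (fun u hu => ?_) fun π hπ hc' => ?_).mono
        ((le_max_right _ _).trans (le_max_left _ _))
      · have hin : ∀ z ∈ compSet G {x | φ x ∈ X} u, φ z ∈ compSet H₀ X (φ u) := by
          rintro z ⟨ρ, hρ⟩
          refine ⟨ρ.map (⟨φ, fun {x y} e => hadj x y e⟩ : G →g H₀), fun y hy => ?_⟩
          rw [Walk.support_map, List.mem_map] at hy
          obtain ⟨y', hy', rfl⟩ := hy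
          exact hρ y' hy'
        exact hA _ _ (x1 (φ u) hu) _ _ (fun z : compSet G {x | φ x ∈ X} u => ⟨φ z.1, hin _ z.2⟩)
          (comp_connected hu) (fun a b e => Subtype.ext (hφ (congrArg Subtype.val e)))
          fun a b hab => hadj _ _ hab
      · exact hA _ _ (x2 _ _ hc' (rm_push φ hφ hadj (fun y hy => hy) (rgraph_rminor hπ))) _ _ id hc'
          Function.injective_id fun _ _ e => e
    · obtain ⟨v⟩ := hc.nonempty
      have hn : 0 < n := lt_of_le_of_lt (Nat.zero_le _) (h.it_lt (φ v))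
      obtain ⟨M, hM⟩ := centres c T lev
      refine DistortionLE.mono (hC V H m n B h T lev q L.mono L.le (fun r _ => ?_) 0 hn (by omega)
        W G φ hc hφ (fun x y hxy => hH (hadj x y hxy)) fun x => BTree.Desc.zero _ (h.it_lt _))
        ((le_max_right _ _).trans (le_max_right _ _))
      rcases L.kind (lev r) with a1 | a1 | a1
      · exact (h1 V H m n B h T lev r L.mono a1).mono (le_max_left _ _)
      · exact (h2 V H m n B h T lev r L.mono a1).mono
          ((le_max_left _ _).trans (le_max_right _ _))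
      · exact (h3 V H m n B h T lev r M L.mono fun t ht e =>
          ⟨(a1 t ht e).1, (a1 t ht e).2.imp id fun b =>
            b.imp (fun b => ⟨b.1, hM t _ e b.2⟩) id⟩).mono
          ((le_max_right _ _).trans (le_max_right _ _))

theorem roundsV (D : ℝ) (a g p w k c q j : ℕ) : ∃ C : ℝ, ∀ (V : Type) [Finite V]
    (G : SimpleGraph V), G.Connected → RoundV D a g p w k c q j V G → Bd G C := by
  obtain ⟨C, hC⟩ := herV D a g p w k c q j
  exact ⟨C, fun V _ G hc h =>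
    P235L.bd_of hc (hC V G h V G id hc Function.injective_id fun _ _ a => a)⟩

end Vale.Agent.Q235V
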