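import Vale.Agent.P235N.Main
import Vale.Agent.Q235.Main
import Vale.Agent.Q235V.Defs

/-! P235: rooted minors of small treewidth. -/

namespace Vale.Agent.Q235V

open SimpleGraph Vale.Agent.P235 Vale.Agent.P235.H134 Vale.Agent.P235.ST.H742
open Vale.Agent.P235L Vale.Agent.P235A Vale.Agent.P235U
open Vale.Agent.Q235 (RootedMinor)

/-- all `Y`-rooted minors have treewidth at most `k` -/
def Thin (k : ℕ) {V : Type} (G : SimpleGraph V) (Y : Set V) : Prop :=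
  ∀ (W : Type) [Finite W] (Z : SimpleGraph W), RootedMinor Z G Y → TreewidthLE Z k

variable {V W U : Type} {G : SimpleGraph V} {Z : SimpleGraph W} {K : SimpleGraph U}

theorem tw_comps [Finite V] {k : ℕ} (h : ∀ u, TreewidthLE (G.induce (compSet G ∅ u)) k) :
    TreewidthLE G k := by
  have key : ∀ m : ℕ, ∀ D : Set V, D.ncard ≤ m → (∀ u ∈ D, ∀ v, G.Adj u v → v ∈ D) →
      TreewidthLE (G.induce D) k := by
    intro m
    induction m with
    | zero => exact fun D hD _ => tw_small (by omega)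
    | succ m ih =>
      intro D hD hcl
      rcases D.eq_empty_or_nonempty with rfl | ⟨u, hu⟩
      · exact tw_small (by simp)
      have h0 : ∀ z : V, z ∉ (∅ : Set V) := fun _ h => h
      have Kcl : ∀ v ∈ compSet G ∅ u, ∀ z, G.Adj v z → z ∈ compSet G ∅ u := fun v hv z ha =>
        ReachOff.trans hv (ReachOff.adj (h0 _) (h0 _) ha)
      have KD : compSet G ∅ u ⊆ D := by
        rintro v ⟨q, -⟩
        have : ∀ (a b : V) (_ : G.Walk a b), a ∈ D → b ∈ D := by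
          intro a b q
          induction q with
          | nil => exact fun h => h
          | cons hab _ ihq => exact fun ha => ihq (hcl _ ha _ hab)
        exact this u v q hu
      have uK : u ∈ compSet G ∅ u := ReachOff.refl (h0 u)
      have hlt : (D \ compSet G ∅ u).ncard < D.ncard :=
        Set.ncard_lt_ncard ⟨Set.sdiff_subset, fun h => (h hu).2 uK⟩ D.toFinite
      have h1 := ih (D \ compSet G ∅ u) (by omega) fun a ha v hav =>
        ⟨hcl a ha.1 v hav, fun h => ha.2 (Kcl v h a hav.symm)⟩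
      have h2 := tw_union h1 (h u) (fun a ha => absurd ha.2 ha.1.2)
        fun a _ ha v hv _ hav => ha (Kcl v hv a hav.symm)
      rwa [Set.sdiff_union_of_subset KD] at h2
  exact TreewidthLE.comap (fun v => (⟨v, trivial⟩ : (Set.univ : Set V)))
    (fun a b e => congrArg Subtype.val e) (fun a b h => h)
    (key _ Set.univ le_rfl fun _ _ _ _ => trivial)

theorem grid' (r : ℕ) : ∃ w : ℕ, ∀ (V : Type) [Finite V] (G : SimpleGraph V),
    ¬ TreewidthLE G w → IsMinor (grid r) G := by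
  obtain ⟨w, hw⟩ := excludedGrid r
  refine ⟨w, fun V _ G h => ?_⟩
  by_contra hn
  refine h (tw_comps fun u => ?_)
  by_contra h1
  exact hn (P235G.E1.minor_push Subtype.val Subtype.val_injective (fun _ _ h => h)
    (hw _ _ (comp_connected (Set.notMem_empty u)) h1))

theorem tw_minor [Finite W] {k : ℕ} (h : IsMinor Z G) (ht : TreewidthLE G k) :
    TreewidthLE Z k := by
  classical
  have : Fintype W := Fintype.ofFinite W
  obtain ⟨μ, h1, h2, h3⟩ := h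
  obtain ⟨κ, hκ, T, C, t1, t2, t3, t4, t5⟩ := ht
  have hm : ∀ t a, a ∈ (Finset.univ.filter fun a => ∃ y ∈ μ a, y ∈ C t) ↔
      ∃ y ∈ μ a, y ∈ C t := by
    intro t a
    simp only [Finset.mem_filter, Finset.mem_univ, true_and]
  refine ⟨κ, hκ, T, fun t => Finset.univ.filter fun a => ∃ y ∈ μ a, y ∈ C t, t1, fun a => ?_,
    fun a b hab => ?_, fun a => ?_, fun t => ?_⟩
  · obtain ⟨⟨y, hy⟩⟩ := (h1 a).nonempty
    obtain ⟨t, ht⟩ := t2 y
    exact ⟨t, (hm t a).2 ⟨y, hy, ht⟩⟩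
  · obtain ⟨x, hx, y, hy, hxy⟩ := h3 a b hab
    obtain ⟨t, a1, a2⟩ := t3 x y hxy
    exact ⟨t, (hm t a).2 ⟨x, hx, a1⟩, (hm t b).2 ⟨y, hy, a2⟩⟩
  · exact tree_union t3 t4 (μ a)
      (fun x hx y hy => reach_of_conn (T := (μ a)ᶜ) (h1 a) (fun z hz h => h hz) hx hy) _
      fun t => hm t a
  · refine le_trans ?_ (t5 t)
    have : ∀ a, ∃ y, (∃ y ∈ μ a, y ∈ C t) → y ∈ μ a ∧ y ∈ C t := by
      intro a
      by_cases h : ∃ y ∈ μ a, y ∈ C t
      · obtain ⟨y, hy⟩ := h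
        exact ⟨y, fun _ => hy⟩
      · obtain ⟨⟨y, -⟩⟩ := (h1 a).nonempty
        exact ⟨y, fun h' => absurd h' h⟩
    choose f hf using this
    refine Finset.card_le_card_of_injOn f (fun a ha => (hf a ((hm t a).1 ha)).2)
      fun a ha b hb e => ?_
    by_contra hne
    exact Set.disjoint_left.1 (h2 a b hne) (hf a ((hm t a).1 ha)).1
      (e ▸ (hf b ((hm t b).1 hb)).1)

theorem tw_apex [Finite W] {k a : ℕ} {S : Set W} (hS : S.ncard ≤ a)
    (ht : TreewidthLE (Z.induce Sᶜ) k) : TreewidthLE Z (k + a) := by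
  classical
  obtain ⟨κ, hκ, T, C, t1, t2, t3, t4, t5⟩ := ht
  obtain ⟨t0⟩ := t1.connected.nonempty
  let C' : κ → Finset W := fun t => (C t).image Subtype.val ∪ (Set.toFinite S).toFinset
  have m1 : ∀ t v, v ∈ S → v ∈ C' t := fun t v hv =>
    Finset.mem_union_right _ ((Set.toFinite S).mem_toFinset.2 hv)
  have m2 : ∀ t v (hv : v ∉ S), v ∈ C' t ↔ (⟨v, hv⟩ : ↥Sᶜ) ∈ C t := by
    intro t v hv
    constructor
    · intro h
      rcases Finset.mem_union.1 h with h | h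
      · obtain ⟨z, hz, rfl⟩ := Finset.mem_image.1 h
        exact hz
      · exact absurd ((Set.toFinite S).mem_toFinset.1 h) hv
    · exact fun h => Finset.mem_union_left _ (Finset.mem_image.2 ⟨_, h, rfl⟩)
  have cov : ∀ v, ∃ t, v ∈ C' t := by
    intro v
    by_cases hv : v ∈ S
    · exact ⟨t0, m1 _ _ hv⟩
    · obtain ⟨t, ht⟩ := t2 ⟨v, hv⟩
      exact ⟨t, (m2 _ _ hv).2 ht⟩
  refine ⟨κ, hκ, T, C', t1, cov, fun u v huv => ?_, fun v => ?_, fun t => ?_⟩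
  · by_cases hu : u ∈ S
    · obtain ⟨t, ht⟩ := cov v
      exact ⟨t, m1 _ _ hu, ht⟩
    by_cases hv : v ∈ S
    · obtain ⟨t, ht⟩ := cov u
      exact ⟨t, ht, m1 _ _ hv⟩
    obtain ⟨t, a1, a2⟩ := t3 ⟨u, hu⟩ ⟨v, hv⟩ huv
    exact ⟨t, (m2 _ _ hu).2 a1, (m2 _ _ hv).2 a2⟩
  · by_cases hv : v ∈ S
    · let φ : T →g T.induce {t | v ∈ C' t} := ⟨fun t => ⟨t, m1 t v hv⟩, fun h => h⟩
      exact fun s t => (t1.connected.preconnected s.1 t.1).map φ
    · have e : {t | v ∈ C' t} = {t | (⟨v, hv⟩ : ↥Sᶜ) ∈ C t} := Set.ext fun t => m2 t v hv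
      rw [e]
      exact t4 _
  · refine (Finset.card_union_le _ _).trans ?_
    have a1 := (Finset.card_image_le (s := C t) (f := Subtype.val)).trans (t5 t)
    rw [← Set.ncard_eq_toFinset_card S (Set.toFinite S)]
    omega

theorem rm_push {Y : Set V} {Y' : Set U} (φ : V → U) (hφ : Function.Injective φ)
    (h : ∀ x y, G.Adj x y → K.Adj (φ x) (φ y)) (hY : ∀ y ∈ Y, φ y ∈ Y') (hm : RootedMinor Z G Y) :
    RootedMinor Z K Y' := by
  obtain ⟨μ, h1, h2, h3, h4⟩ := hm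
  refine ⟨fun a => φ '' μ a, fun a => ?_, fun a b hab => ?_, fun a b hab => ?_, fun a => ?_⟩
  · refine (h1 a).map (f := ⟨fun v : μ a => (⟨φ v.1, ⟨v.1, v.2, rfl⟩⟩ : (φ '' μ a : Set U)),
      fun {x y} hxy => h _ _ hxy⟩) ?_
    rintro ⟨_, ⟨v, hv, rfl⟩⟩
    exact ⟨⟨v, hv⟩, rfl⟩
  · exact (Set.disjoint_image_iff hφ).2 (h2 a b hab)
  · obtain ⟨x, hx, y, hy, hxy⟩ := h3 a b hab
    exact ⟨φ x, ⟨x, hx, rfl⟩, φ y, ⟨y, hy, rfl⟩, h x y hxy⟩
  · obtain ⟨y, hy, hy'⟩ := h4 a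
    exact ⟨φ y, ⟨y, hy, rfl⟩, hY y hy'⟩

theorem reach_union {ν : U → Set V} (h1 : ∀ a, (G.induce (ν a)).Connected)
    (h3 : ∀ a b, K.Adj a b → ∃ x ∈ ν a, ∃ y ∈ ν b, G.Adj x y) {S : Set U} {T : Set V}
    (hT : ∀ x ∈ S, ν x ⊆ T) {x y : S} (w : (K.induce S).Walk x y) :
    ∀ (u v : V) (hu : u ∈ ν x.1) (hv : v ∈ ν y.1),
      (G.induce T).Reachable ⟨u, hT x.1 x.2 hu⟩ ⟨v, hT y.1 y.2 hv⟩ := by
  have hin : ∀ (x : S) (u v : V) (hu : u ∈ ν x.1) (hv : v ∈ ν x.1),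
      (G.induce T).Reachable ⟨u, hT x.1 x.2 hu⟩ ⟨v, hT x.1 x.2 hv⟩ := by
    intro x u v hu hv
    exact ((h1 x.1).preconnected ⟨u, hu⟩ ⟨v, hv⟩).map (induceHomOfLE G (hT x.1 x.2)).toHom
  induction w with
  | nil => exact hin _
  | @cons a b c hab _ ih =>
    intro u v hu hv
    obtain ⟨p, hp, q, hq, hpq⟩ := h3 a.1 b.1 hab
    refine (hin a u p hu hp).trans (Reachable.trans ?_ (ih q v hq hv))
    exact Adj.reachable (show (G.induce T).Adj ⟨p, hT a.1 a.2 hp⟩ ⟨q, hT b.1 b.2 hq⟩ from hpq)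

theorem rm_trans {Y : Set V} (h : IsMinor Z K) (h' : RootedMinor K G Y) : RootedMinor Z G Y := by
  obtain ⟨μ, a1, a2, a3⟩ := h
  obtain ⟨ν, b1, b2, b3, b4⟩ := h'
  refine ⟨fun a => ⋃ x ∈ μ a, ν x, fun a => ?_, fun a b hab => ?_, fun a b hab => ?_,
    fun a => ?_⟩
  · have hT : ∀ x ∈ μ a, ν x ⊆ ⋃ x ∈ μ a, ν x := fun x hx => Set.subset_biUnion_of_mem hx
    obtain ⟨⟨x0, hx0⟩⟩ := (a1 a).nonempty
    obtain ⟨⟨v0, hv0⟩⟩ := (b1 x0).nonempty
    have : Nonempty (⋃ x ∈ μ a, ν x : Set V) := ⟨⟨v0, hT x0 hx0 hv0⟩⟩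
    refine ⟨fun u v => ?_⟩
    obtain ⟨u, hu⟩ := u
    obtain ⟨v, hv⟩ := v
    obtain ⟨x, hx, hux⟩ := Set.mem_iUnion₂.1 hu
    obtain ⟨y, hy, hvy⟩ := Set.mem_iUnion₂.1 hv
    obtain ⟨w⟩ := (a1 a).preconnected ⟨x, hx⟩ ⟨y, hy⟩
    exact reach_union b1 b3 hT w u v hux hvy
  · rw [Set.disjoint_left]
    intro z hz hz'
    obtain ⟨x, hx, hzx⟩ := Set.mem_iUnion₂.1 hz
    obtain ⟨y, hy, hzy⟩ := Set.mem_iUnion₂.1 hz'
    by_cases hxy : x = y
    · subst hxy
      exact Set.disjoint_left.1 (a2 a b hab) hx hy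
    · exact Set.disjoint_left.1 (b2 x y hxy) hzx hzy
  · obtain ⟨x, hx, y, hy, hxy⟩ := a3 a b hab
    obtain ⟨p, hp, q, hq, hpq⟩ := b3 x y hxy
    exact ⟨p, Set.mem_iUnion₂.2 ⟨x, hx, hp⟩, q, Set.mem_iUnion₂.2 ⟨y, hy, hq⟩, hpq⟩
  · obtain ⟨⟨x, hx⟩⟩ := (a1 a).nonempty
    obtain ⟨y, hy, hy'⟩ := b4 x
    exact ⟨y, Set.mem_iUnion₂.2 ⟨x, hx, hy⟩, hy'⟩

theorem thin_of_grid (r : ℕ) : ∃ k : ℕ, ∀ (V : Type) (G : SimpleGraph V) (Y : Set V),
    ¬ RootedMinor (grid r) G Y → Thin k G Y := by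
  obtain ⟨k, hk⟩ := grid' r
  refine ⟨k, fun V G Y h W _ Z hZ => ?_⟩
  by_contra hn
  exact h (rm_trans (hk W Z hn) hZ)

theorem Thin.mono {k l : ℕ} {Y : Set V} (h : Thin k G Y) (hkl : k ≤ l) : Thin l G Y := by
  intro W _ Z hZ
  obtain ⟨κ, hκ, S, C, h1, h2, h3, h4, h5⟩ := h W Z hZ
  exact ⟨κ, hκ, S, C, h1, h2, h3, h4, fun t => (h5 t).trans (by omega)⟩

/-- a set with a walk inside it from every point to a base point is connected -/
theorem conn_of_walks {S : Set V} {x : V} (hx : x ∈ S)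
    (h : ∀ v ∈ S, ∃ q : G.Walk v x, ∀ z ∈ q.support, z ∈ S) : (G.induce S).Connected := by
  have : Nonempty S := ⟨⟨x, hx⟩⟩
  have key : ∀ (a b : V) (q : G.Walk a b) (hq : ∀ z ∈ q.support, z ∈ S),
      (G.induce S).Reachable ⟨a, hq a q.start_mem_support⟩ ⟨b, hq b q.end_mem_support⟩ := by
    intro a b q
    induction q with
    | nil => exact fun _ => Reachable.refl _
    | @cons a c b hac r ih =>
      intro hq
      have h1 : ∀ z ∈ r.support, z ∈ S := fun z hz => hq z (by simp [hz])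
      refine Reachable.trans (Adj.reachable ?_) (ih h1)
      exact hac
  have k2 : ∀ v : S, (G.induce S).Reachable v ⟨x, hx⟩ := fun v => by
    obtain ⟨q, hq⟩ := h v.1 v.2
    exact key _ _ q hq
  exact ⟨fun u v => (k2 u).trans (k2 v).symm⟩

/-- a rooted contraction is a rooted minor -/
theorem rgraph_rminor {X : Set V} {π : V → V} (hπ : RContr G X π) :
    RootedMinor (rgraph G X π) G X := by
  refine ⟨fun x => {v | π v = x.1}, fun x => conn_of_walks (hπ.id x.1 x.2) fun v hv => ?_,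
    fun a b hab => Set.disjoint_left.2 fun z h1 h2 => hab (Subtype.ext (h1.symm.trans h2)),
    fun a b ⟨_, u, v, huv, hu, hv⟩ => ⟨u, hu, v, hv, huv⟩, fun x => ⟨x.1, hπ.id x.1 x.2, x.2⟩⟩
  obtain ⟨q, hq⟩ := hπ.conn v
  have hv' : π v = x.1 := hv
  exact ⟨q.copy rfl hv', fun z hz => by
    rw [Walk.support_copy] at hz
    exact (hq z hz).trans hv'⟩

theorem Thin.apex [Finite V] {k a : ℕ} {A X Y : Set V} (h : Thin k G X) (hA : A.ncard ≤ a)
    (hY : ∀ y ∈ Y, y ∈ A ∨ y ∈ X) : Thin (k + a) G Y := by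
  rintro W _ Z ⟨μ, h1, h2, h3, h4⟩
  let S : Set W := {b | ∃ y ∈ μ b, y ∈ A}
  have hS : S.ncard ≤ a := by
    have : ∀ b, ∃ y, b ∈ S → y ∈ μ b ∧ y ∈ A := by
      intro b
      by_cases h : b ∈ S
      · obtain ⟨y, hy⟩ := h
        exact ⟨y, fun _ => hy⟩
      · obtain ⟨y, -⟩ := h4 b
        exact ⟨y, fun h' => absurd h' h⟩
    choose F hF using this
    refine (Set.ncard_le_ncard_of_injOn F (fun b hb => (hF b hb).2) fun b hb c hc e => ?_).trans hA
    by_contra hne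
    exact Set.disjoint_left.1 (h2 b c hne) (hF b hb).1 (e ▸ (hF c hc).1)
  refine tw_apex hS (h _ _ ⟨fun b => μ b.1, fun b => h1 _,
    fun b c e => h2 _ _ fun e' => e (Subtype.ext e'), fun b c e => h3 _ _ e, fun b => ?_⟩)
  obtain ⟨y, y1, y2⟩ := h4 b.1
  exact ⟨y, y1, (hY y y2).resolve_left fun e => b.2 ⟨y, y1, e⟩⟩

/-- **Removing a set with bounded rooted contractions.** -/
theorem rc (A D : ℝ) : ∃ K : ℝ, ∀ (V : Type) [Finite V] (G : SimpleGraph V) (X : Set V),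
    G.Connected → (∀ u ∉ X, DistortionLE (G.induce (compSet G X u)) D) →
    (∀ π, RContr G X π → (rgraph G X π).Connected → DistortionLE (rgraph G X π) A) →
    DistortionLE G K := by
  obtain ⟨r, -, hr⟩ := H23.badKStmt H406.mono D
  obtain ⟨C, hC1, hC⟩ := conRetr r
  have a1 := le_max_right A 1
  have d1 := le_max_right D 1
  have e1 : (1 : ℝ) ≤ max A 1 * C := one_le_mul_of_one_le_of_one_le a1 hC1
  refine ⟨3400000 * max D 1 * (max A 1 * C), fun V _ G X hc hcomp hM => ?_⟩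
  rcases X.eq_empty_or_nonempty with rfl | hX
  · refine (distortion_of_empty hc hcomp).mono ?_
    have := le_max_left D 1
    nlinarith
  · exact thmT hc hX a1 d1 hC1 (fun ℓ hℓ => hC V G ℓ hc hℓ _ hX fun u hu hm =>
      hr _ _ (comp_connected hu) hm (hcomp u hu))
      (fun π hπ => (hM π hπ (rgraph_connected hπ hc hX)).mono (le_max_left _ _))
      fun u hu => (hcomp u hu).mono (le_max_left _ _)

end Vale.Agent.Q235V
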